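import Mathlib

namespace Vale.Agent.Results.P330.AQuarterThreshold

/-- Gates of a generalized circuit over the node type `V`.  The last argument is always the
output node `z`, the node arguments before it are the inputs `a`, `b`. -/
inductive Gate (V : Type) : Type
  | const (α : ℚ) (z : V)
  | scale (α : ℚ) (a z : V)
  | copy (a z : V)
  | add (a b z : V)
  | sub (a b z : V)
  | less (a b z : V)
  | lnot (a z : V)
  | lor (a b z : V)
  | land (a b z : V)

/-- The output node of a gate. -/
def Gate.out {V : Type} : Gate V → V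
  | .const _ z => z
  | .scale _ _ z => z
  | .copy _ z => z
  | .add _ _ z => z
  | .sub _ _ z => z
  | .less _ _ z => z
  | .lnot _ z => z
  | .lor _ _ z => z
  | .land _ _ z => z

/-- Gate parameters lie in `[0,1]`. -/
def Gate.ParamOK {V : Type} : Gate V → Prop
  | .const α _ => 0 ≤ α ∧ α ≤ 1
  | .scale α _ _ => 0 ≤ α ∧ α ≤ 1
  | _ => True

/-- A generalized circuit: a nonempty finite set of gates, every node being the output of at most
one gate (directed cycles are allowed), parameters in `[0,1]`. -/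
structure GCircuit (V : Type) where
  gates : Finset (Gate V)
  nonempty : gates.Nonempty
  out_inj : ∀ g ∈ gates, ∀ h ∈ gates, g.out = h.out → g = h
  param : ∀ g ∈ gates, g.ParamOK

/-- `ε`-satisfaction of a gate by an assignment `x`, exactly as in the problem file. -/
def Sat {V : Type} (ε : ℚ) (x : V → ℚ) : Gate V → Prop
  | .const α z => |x z - α| ≤ ε
  | .scale α a z => |x z - α * x a| ≤ ε
  | .copy a z => |x z - x a| ≤ ε
  | .add a b z => |x z - min (x a + x b) 1| ≤ ε
  | .sub a b z => |x z - max (x a - x b) 0| ≤ ε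
  | .less a b z => (x a < x b - ε → 1 - ε ≤ x z) ∧ (x b + ε < x a → x z ≤ ε)
  | .lnot a z => (x a ≤ ε → 1 - ε ≤ x z) ∧ (1 - ε ≤ x a → x z ≤ ε)
  | .lor a b z =>
      ((1 - ε ≤ x a ∨ 1 - ε ≤ x b) → 1 - ε ≤ x z) ∧ ((x a ≤ ε ∧ x b ≤ ε) → x z ≤ ε)
  | .land a b z =>
      ((1 - ε ≤ x a ∧ 1 - ε ≤ x b) → 1 - ε ≤ x z) ∧ ((x a ≤ ε ∨ x b ≤ ε) → x z ≤ ε)

/-- Forced Boolean values: the least relation closed under sixteen local rules (three-valued
evaluation of the circuit).  A Constant gate forces `false` if its parameter is below `1/2 - ε` and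
`true` if it is above `1/2 + ε`; a Scale gate forces `false` if its parameter is below `1 - 2 ε` or
its input is forced `false`; Copy passes forced values on; every Add gate forces `true`, every
Subtract gate forces `false`; Less forces `true` on inputs (`false`, `true`) and `false` on inputs
(`true`, `false`); Not, Or, And follow three-valued logic.  The closure is reached after at most
`|V|` rounds of local updates. -/
inductive Det {V : Type} (T : Finset (Gate V)) (ε : ℚ) : V → Bool → Prop
  | constLo {α : ℚ} {z : V} : Gate.const α z ∈ T → α < 1 / 2 - ε → Det T ε z false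
  | constHi {α : ℚ} {z : V} : Gate.const α z ∈ T → 1 / 2 + ε < α → Det T ε z true
  | scaleSmall {α : ℚ} {a z : V} : Gate.scale α a z ∈ T → α < 1 - 2 * ε → Det T ε z false
  | scaleLo {α : ℚ} {a z : V} : Gate.scale α a z ∈ T → Det T ε a false → Det T ε z false
  | copy {a z : V} {b : Bool} : Gate.copy a z ∈ T → Det T ε a b → Det T ε z b
  | add {a b z : V} : Gate.add a b z ∈ T → Det T ε z true
  | sub {a b z : V} : Gate.sub a b z ∈ T → Det T ε z false
  | lessT {a b z : V} : Gate.less a b z ∈ T → Det T ε a false → Det T ε b true → Det T ε z true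
  | lessF {a b z : V} : Gate.less a b z ∈ T → Det T ε a true → Det T ε b false → Det T ε z false
  | lnot {a z : V} {b : Bool} : Gate.lnot a z ∈ T → Det T ε a b → Det T ε z (!b)
  | lorL {a b z : V} : Gate.lor a b z ∈ T → Det T ε a true → Det T ε z true
  | lorR {a b z : V} : Gate.lor a b z ∈ T → Det T ε b true → Det T ε z true
  | lorF {a b z : V} : Gate.lor a b z ∈ T → Det T ε a false → Det T ε b false → Det T ε z false
  | landL {a b z : V} : Gate.land a b z ∈ T → Det T ε a false → Det T ε z false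
  | landR {a b z : V} : Gate.land a b z ∈ T → Det T ε b false → Det T ε z false
  | landT {a b z : V} : Gate.land a b z ∈ T → Det T ε a true → Det T ε b true → Det T ε z true

/-- The three-valued assignment: `1 - ε` on nodes forced `true`, `ε` on nodes forced `false` and
`1/2` on all other nodes. -/
noncomputable def kleeneAssign {V : Type} (T : Finset (Gate V)) (ε : ℚ) (z : V) : ℚ :=
  open Classical in
  if Det T ε z true then 1 - ε else if Det T ε z false then ε else 1 / 2

theorem Det.unique {V : Type} {T : Finset (Gate V)} {ε : ℚ}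
    (hinj : ∀ g ∈ T, ∀ h ∈ T, g.out = h.out → g = h) (hε : 0 < ε)
    {z : V} {b b' : Bool} (h : Det T ε z b) (h' : Det T ε z b') : b = b' := by
  induction h generalizing b' with
  | constLo hg q1 =>
    cases h' with
    | constLo hg' p1 => rfl
    | constHi hg' p1 =>
      have this := hinj _ hg _ hg' rfl
      cases this
      linarith
    | scaleSmall hg' p1 => exact absurd (hinj _ hg _ hg' rfl) (by simp)
    | scaleLo hg' p1 => exact absurd (hinj _ hg _ hg' rfl) (by simp)
    | copy hg' p1 => exact absurd (hinj _ hg _ hg' rfl) (by simp)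
    | add hg' => exact absurd (hinj _ hg _ hg' rfl) (by simp)
    | sub hg' => exact absurd (hinj _ hg _ hg' rfl) (by simp)
    | lessT hg' p1 p2 => exact absurd (hinj _ hg _ hg' rfl) (by simp)
    | lessF hg' p1 p2 => exact absurd (hinj _ hg _ hg' rfl) (by simp)
    | lnot hg' p1 => exact absurd (hinj _ hg _ hg' rfl) (by simp)
    | lorL hg' p1 => exact absurd (hinj _ hg _ hg' rfl) (by simp)
    | lorR hg' p1 => exact absurd (hinj _ hg _ hg' rfl) (by simp)
    | lorF hg' p1 p2 => exact absurd (hinj _ hg _ hg' rfl) (by simp)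
    | landL hg' p1 => exact absurd (hinj _ hg _ hg' rfl) (by simp)
    | landR hg' p1 => exact absurd (hinj _ hg _ hg' rfl) (by simp)
    | landT hg' p1 p2 => exact absurd (hinj _ hg _ hg' rfl) (by simp)
  | constHi hg q1 =>
    cases h' with
    | constLo hg' p1 =>
      have this := hinj _ hg _ hg' rfl
      cases this
      linarith
    | constHi hg' p1 => rfl
    | scaleSmall hg' p1 => exact absurd (hinj _ hg _ hg' rfl) (by simp)
    | scaleLo hg' p1 => exact absurd (hinj _ hg _ hg' rfl) (by simp)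
    | copy hg' p1 => exact absurd (hinj _ hg _ hg' rfl) (by simp)
    | add hg' => exact absurd (hinj _ hg _ hg' rfl) (by simp)
    | sub hg' => exact absurd (hinj _ hg _ hg' rfl) (by simp)
    | lessT hg' p1 p2 => exact absurd (hinj _ hg _ hg' rfl) (by simp)
    | lessF hg' p1 p2 => exact absurd (hinj _ hg _ hg' rfl) (by simp)
    | lnot hg' p1 => exact absurd (hinj _ hg _ hg' rfl) (by simp)
    | lorL hg' p1 => exact absurd (hinj _ hg _ hg' rfl) (by simp)
    | lorR hg' p1 => exact absurd (hinj _ hg _ hg' rfl) (by simp)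
    | lorF hg' p1 p2 => exact absurd (hinj _ hg _ hg' rfl) (by simp)
    | landL hg' p1 => exact absurd (hinj _ hg _ hg' rfl) (by simp)
    | landR hg' p1 => exact absurd (hinj _ hg _ hg' rfl) (by simp)
    | landT hg' p1 p2 => exact absurd (hinj _ hg _ hg' rfl) (by simp)
  | scaleSmall hg q1 =>
    cases h' with
    | constLo hg' p1 => exact absurd (hinj _ hg _ hg' rfl) (by simp)
    | constHi hg' p1 => exact absurd (hinj _ hg _ hg' rfl) (by simp)
    | scaleSmall hg' p1 => rfl
    | scaleLo hg' p1 => rfl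
    | copy hg' p1 => exact absurd (hinj _ hg _ hg' rfl) (by simp)
    | add hg' => exact absurd (hinj _ hg _ hg' rfl) (by simp)
    | sub hg' => exact absurd (hinj _ hg _ hg' rfl) (by simp)
    | lessT hg' p1 p2 => exact absurd (hinj _ hg _ hg' rfl) (by simp)
    | lessF hg' p1 p2 => exact absurd (hinj _ hg _ hg' rfl) (by simp)
    | lnot hg' p1 => exact absurd (hinj _ hg _ hg' rfl) (by simp)
    | lorL hg' p1 => exact absurd (hinj _ hg _ hg' rfl) (by simp)
    | lorR hg' p1 => exact absurd (hinj _ hg _ hg' rfl) (by simp)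
    | lorF hg' p1 p2 => exact absurd (hinj _ hg _ hg' rfl) (by simp)
    | landL hg' p1 => exact absurd (hinj _ hg _ hg' rfl) (by simp)
    | landR hg' p1 => exact absurd (hinj _ hg _ hg' rfl) (by simp)
    | landT hg' p1 p2 => exact absurd (hinj _ hg _ hg' rfl) (by simp)
  | scaleLo hg q1 ih1 =>
    cases h' with
    | constLo hg' p1 => exact absurd (hinj _ hg _ hg' rfl) (by simp)
    | constHi hg' p1 => exact absurd (hinj _ hg _ hg' rfl) (by simp)
    | scaleSmall hg' p1 => rfl
    | scaleLo hg' p1 => rfl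
    | copy hg' p1 => exact absurd (hinj _ hg _ hg' rfl) (by simp)
    | add hg' => exact absurd (hinj _ hg _ hg' rfl) (by simp)
    | sub hg' => exact absurd (hinj _ hg _ hg' rfl) (by simp)
    | lessT hg' p1 p2 => exact absurd (hinj _ hg _ hg' rfl) (by simp)
    | lessF hg' p1 p2 => exact absurd (hinj _ hg _ hg' rfl) (by simp)
    | lnot hg' p1 => exact absurd (hinj _ hg _ hg' rfl) (by simp)
    | lorL hg' p1 => exact absurd (hinj _ hg _ hg' rfl) (by simp)
    | lorR hg' p1 => exact absurd (hinj _ hg _ hg' rfl) (by simp)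
    | lorF hg' p1 p2 => exact absurd (hinj _ hg _ hg' rfl) (by simp)
    | landL hg' p1 => exact absurd (hinj _ hg _ hg' rfl) (by simp)
    | landR hg' p1 => exact absurd (hinj _ hg _ hg' rfl) (by simp)
    | landT hg' p1 p2 => exact absurd (hinj _ hg _ hg' rfl) (by simp)
  | copy hg q1 ih1 =>
    cases h' with
    | constLo hg' p1 => exact absurd (hinj _ hg _ hg' rfl) (by simp)
    | constHi hg' p1 => exact absurd (hinj _ hg _ hg' rfl) (by simp)
    | scaleSmall hg' p1 => exact absurd (hinj _ hg _ hg' rfl) (by simp)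
    | scaleLo hg' p1 => exact absurd (hinj _ hg _ hg' rfl) (by simp)
    | copy hg' p1 =>
      have this := hinj _ hg _ hg' rfl
      cases this
      exact ih1 p1
    | add hg' => exact absurd (hinj _ hg _ hg' rfl) (by simp)
    | sub hg' => exact absurd (hinj _ hg _ hg' rfl) (by simp)
    | lessT hg' p1 p2 => exact absurd (hinj _ hg _ hg' rfl) (by simp)
    | lessF hg' p1 p2 => exact absurd (hinj _ hg _ hg' rfl) (by simp)
    | lnot hg' p1 => exact absurd (hinj _ hg _ hg' rfl) (by simp)
    | lorL hg' p1 => exact absurd (hinj _ hg _ hg' rfl) (by simp)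
    | lorR hg' p1 => exact absurd (hinj _ hg _ hg' rfl) (by simp)
    | lorF hg' p1 p2 => exact absurd (hinj _ hg _ hg' rfl) (by simp)
    | landL hg' p1 => exact absurd (hinj _ hg _ hg' rfl) (by simp)
    | landR hg' p1 => exact absurd (hinj _ hg _ hg' rfl) (by simp)
    | landT hg' p1 p2 => exact absurd (hinj _ hg _ hg' rfl) (by simp)
  | add hg =>
    cases h' with
    | constLo hg' p1 => exact absurd (hinj _ hg _ hg' rfl) (by simp)
    | constHi hg' p1 => exact absurd (hinj _ hg _ hg' rfl) (by simp)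
    | scaleSmall hg' p1 => exact absurd (hinj _ hg _ hg' rfl) (by simp)
    | scaleLo hg' p1 => exact absurd (hinj _ hg _ hg' rfl) (by simp)
    | copy hg' p1 => exact absurd (hinj _ hg _ hg' rfl) (by simp)
    | add hg' => rfl
    | sub hg' => exact absurd (hinj _ hg _ hg' rfl) (by simp)
    | lessT hg' p1 p2 => exact absurd (hinj _ hg _ hg' rfl) (by simp)
    | lessF hg' p1 p2 => exact absurd (hinj _ hg _ hg' rfl) (by simp)
    | lnot hg' p1 => exact absurd (hinj _ hg _ hg' rfl) (by simp)
    | lorL hg' p1 => exact absurd (hinj _ hg _ hg' rfl) (by simp)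
    | lorR hg' p1 => exact absurd (hinj _ hg _ hg' rfl) (by simp)
    | lorF hg' p1 p2 => exact absurd (hinj _ hg _ hg' rfl) (by simp)
    | landL hg' p1 => exact absurd (hinj _ hg _ hg' rfl) (by simp)
    | landR hg' p1 => exact absurd (hinj _ hg _ hg' rfl) (by simp)
    | landT hg' p1 p2 => exact absurd (hinj _ hg _ hg' rfl) (by simp)
  | sub hg =>
    cases h' with
    | constLo hg' p1 => exact absurd (hinj _ hg _ hg' rfl) (by simp)
    | constHi hg' p1 => exact absurd (hinj _ hg _ hg' rfl) (by simp)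
    | scaleSmall hg' p1 => exact absurd (hinj _ hg _ hg' rfl) (by simp)
    | scaleLo hg' p1 => exact absurd (hinj _ hg _ hg' rfl) (by simp)
    | copy hg' p1 => exact absurd (hinj _ hg _ hg' rfl) (by simp)
    | add hg' => exact absurd (hinj _ hg _ hg' rfl) (by simp)
    | sub hg' => rfl
    | lessT hg' p1 p2 => exact absurd (hinj _ hg _ hg' rfl) (by simp)
    | lessF hg' p1 p2 => exact absurd (hinj _ hg _ hg' rfl) (by simp)
    | lnot hg' p1 => exact absurd (hinj _ hg _ hg' rfl) (by simp)
    | lorL hg' p1 => exact absurd (hinj _ hg _ hg' rfl) (by simp)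
    | lorR hg' p1 => exact absurd (hinj _ hg _ hg' rfl) (by simp)
    | lorF hg' p1 p2 => exact absurd (hinj _ hg _ hg' rfl) (by simp)
    | landL hg' p1 => exact absurd (hinj _ hg _ hg' rfl) (by simp)
    | landR hg' p1 => exact absurd (hinj _ hg _ hg' rfl) (by simp)
    | landT hg' p1 p2 => exact absurd (hinj _ hg _ hg' rfl) (by simp)
  | lessT hg q1 q2 ih1 ih2 =>
    cases h' with
    | constLo hg' p1 => exact absurd (hinj _ hg _ hg' rfl) (by simp)
    | constHi hg' p1 => exact absurd (hinj _ hg _ hg' rfl) (by simp)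
    | scaleSmall hg' p1 => exact absurd (hinj _ hg _ hg' rfl) (by simp)
    | scaleLo hg' p1 => exact absurd (hinj _ hg _ hg' rfl) (by simp)
    | copy hg' p1 => exact absurd (hinj _ hg _ hg' rfl) (by simp)
    | add hg' => exact absurd (hinj _ hg _ hg' rfl) (by simp)
    | sub hg' => exact absurd (hinj _ hg _ hg' rfl) (by simp)
    | lessT hg' p1 p2 => rfl
    | lessF hg' p1 p2 =>
      have this := hinj _ hg _ hg' rfl
      cases this
      exact (ih1 p1).symm
    | lnot hg' p1 => exact absurd (hinj _ hg _ hg' rfl) (by simp)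
    | lorL hg' p1 => exact absurd (hinj _ hg _ hg' rfl) (by simp)
    | lorR hg' p1 => exact absurd (hinj _ hg _ hg' rfl) (by simp)
    | lorF hg' p1 p2 => exact absurd (hinj _ hg _ hg' rfl) (by simp)
    | landL hg' p1 => exact absurd (hinj _ hg _ hg' rfl) (by simp)
    | landR hg' p1 => exact absurd (hinj _ hg _ hg' rfl) (by simp)
    | landT hg' p1 p2 => exact absurd (hinj _ hg _ hg' rfl) (by simp)
  | lessF hg q1 q2 ih1 ih2 =>
    cases h' with
    | constLo hg' p1 => exact absurd (hinj _ hg _ hg' rfl) (by simp)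
    | constHi hg' p1 => exact absurd (hinj _ hg _ hg' rfl) (by simp)
    | scaleSmall hg' p1 => exact absurd (hinj _ hg _ hg' rfl) (by simp)
    | scaleLo hg' p1 => exact absurd (hinj _ hg _ hg' rfl) (by simp)
    | copy hg' p1 => exact absurd (hinj _ hg _ hg' rfl) (by simp)
    | add hg' => exact absurd (hinj _ hg _ hg' rfl) (by simp)
    | sub hg' => exact absurd (hinj _ hg _ hg' rfl) (by simp)
    | lessT hg' p1 p2 =>
      have this := hinj _ hg _ hg' rfl
      cases this
      exact (ih1 p1).symm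
    | lessF hg' p1 p2 => rfl
    | lnot hg' p1 => exact absurd (hinj _ hg _ hg' rfl) (by simp)
    | lorL hg' p1 => exact absurd (hinj _ hg _ hg' rfl) (by simp)
    | lorR hg' p1 => exact absurd (hinj _ hg _ hg' rfl) (by simp)
    | lorF hg' p1 p2 => exact absurd (hinj _ hg _ hg' rfl) (by simp)
    | landL hg' p1 => exact absurd (hinj _ hg _ hg' rfl) (by simp)
    | landR hg' p1 => exact absurd (hinj _ hg _ hg' rfl) (by simp)
    | landT hg' p1 p2 => exact absurd (hinj _ hg _ hg' rfl) (by simp)
  | lnot hg q1 ih1 =>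
    cases h' with
    | constLo hg' p1 => exact absurd (hinj _ hg _ hg' rfl) (by simp)
    | constHi hg' p1 => exact absurd (hinj _ hg _ hg' rfl) (by simp)
    | scaleSmall hg' p1 => exact absurd (hinj _ hg _ hg' rfl) (by simp)
    | scaleLo hg' p1 => exact absurd (hinj _ hg _ hg' rfl) (by simp)
    | copy hg' p1 => exact absurd (hinj _ hg _ hg' rfl) (by simp)
    | add hg' => exact absurd (hinj _ hg _ hg' rfl) (by simp)
    | sub hg' => exact absurd (hinj _ hg _ hg' rfl) (by simp)
    | lessT hg' p1 p2 => exact absurd (hinj _ hg _ hg' rfl) (by simp)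
    | lessF hg' p1 p2 => exact absurd (hinj _ hg _ hg' rfl) (by simp)
    | lnot hg' p1 =>
      have this := hinj _ hg _ hg' rfl
      cases this
      rw [ih1 p1]
    | lorL hg' p1 => exact absurd (hinj _ hg _ hg' rfl) (by simp)
    | lorR hg' p1 => exact absurd (hinj _ hg _ hg' rfl) (by simp)
    | lorF hg' p1 p2 => exact absurd (hinj _ hg _ hg' rfl) (by simp)
    | landL hg' p1 => exact absurd (hinj _ hg _ hg' rfl) (by simp)
    | landR hg' p1 => exact absurd (hinj _ hg _ hg' rfl) (by simp)
    | landT hg' p1 p2 => exact absurd (hinj _ hg _ hg' rfl) (by simp)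
  | lorL hg q1 ih1 =>
    cases h' with
    | constLo hg' p1 => exact absurd (hinj _ hg _ hg' rfl) (by simp)
    | constHi hg' p1 => exact absurd (hinj _ hg _ hg' rfl) (by simp)
    | scaleSmall hg' p1 => exact absurd (hinj _ hg _ hg' rfl) (by simp)
    | scaleLo hg' p1 => exact absurd (hinj _ hg _ hg' rfl) (by simp)
    | copy hg' p1 => exact absurd (hinj _ hg _ hg' rfl) (by simp)
    | add hg' => exact absurd (hinj _ hg _ hg' rfl) (by simp)
    | sub hg' => exact absurd (hinj _ hg _ hg' rfl) (by simp)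
    | lessT hg' p1 p2 => exact absurd (hinj _ hg _ hg' rfl) (by simp)
    | lessF hg' p1 p2 => exact absurd (hinj _ hg _ hg' rfl) (by simp)
    | lnot hg' p1 => exact absurd (hinj _ hg _ hg' rfl) (by simp)
    | lorL hg' p1 => rfl
    | lorR hg' p1 => rfl
    | lorF hg' p1 p2 =>
      have this := hinj _ hg _ hg' rfl
      cases this
      exact ih1 p1
    | landL hg' p1 => exact absurd (hinj _ hg _ hg' rfl) (by simp)
    | landR hg' p1 => exact absurd (hinj _ hg _ hg' rfl) (by simp)
    | landT hg' p1 p2 => exact absurd (hinj _ hg _ hg' rfl) (by simp)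
  | lorR hg q1 ih1 =>
    cases h' with
    | constLo hg' p1 => exact absurd (hinj _ hg _ hg' rfl) (by simp)
    | constHi hg' p1 => exact absurd (hinj _ hg _ hg' rfl) (by simp)
    | scaleSmall hg' p1 => exact absurd (hinj _ hg _ hg' rfl) (by simp)
    | scaleLo hg' p1 => exact absurd (hinj _ hg _ hg' rfl) (by simp)
    | copy hg' p1 => exact absurd (hinj _ hg _ hg' rfl) (by simp)
    | add hg' => exact absurd (hinj _ hg _ hg' rfl) (by simp)
    | sub hg' => exact absurd (hinj _ hg _ hg' rfl) (by simp)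
    | lessT hg' p1 p2 => exact absurd (hinj _ hg _ hg' rfl) (by simp)
    | lessF hg' p1 p2 => exact absurd (hinj _ hg _ hg' rfl) (by simp)
    | lnot hg' p1 => exact absurd (hinj _ hg _ hg' rfl) (by simp)
    | lorL hg' p1 => rfl
    | lorR hg' p1 => rfl
    | lorF hg' p1 p2 =>
      have this := hinj _ hg _ hg' rfl
      cases this
      exact ih1 p2
    | landL hg' p1 => exact absurd (hinj _ hg _ hg' rfl) (by simp)
    | landR hg' p1 => exact absurd (hinj _ hg _ hg' rfl) (by simp)
    | landT hg' p1 p2 => exact absurd (hinj _ hg _ hg' rfl) (by simp)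
  | lorF hg q1 q2 ih1 ih2 =>
    cases h' with
    | constLo hg' p1 => exact absurd (hinj _ hg _ hg' rfl) (by simp)
    | constHi hg' p1 => exact absurd (hinj _ hg _ hg' rfl) (by simp)
    | scaleSmall hg' p1 => exact absurd (hinj _ hg _ hg' rfl) (by simp)
    | scaleLo hg' p1 => exact absurd (hinj _ hg _ hg' rfl) (by simp)
    | copy hg' p1 => exact absurd (hinj _ hg _ hg' rfl) (by simp)
    | add hg' => exact absurd (hinj _ hg _ hg' rfl) (by simp)
    | sub hg' => exact absurd (hinj _ hg _ hg' rfl) (by simp)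
    | lessT hg' p1 p2 => exact absurd (hinj _ hg _ hg' rfl) (by simp)
    | lessF hg' p1 p2 => exact absurd (hinj _ hg _ hg' rfl) (by simp)
    | lnot hg' p1 => exact absurd (hinj _ hg _ hg' rfl) (by simp)
    | lorL hg' p1 =>
      have this := hinj _ hg _ hg' rfl
      cases this
      exact ih1 p1
    | lorR hg' p1 =>
      have this := hinj _ hg _ hg' rfl
      cases this
      exact ih2 p1
    | lorF hg' p1 p2 => rfl
    | landL hg' p1 => exact absurd (hinj _ hg _ hg' rfl) (by simp)
    | landR hg' p1 => exact absurd (hinj _ hg _ hg' rfl) (by simp)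
    | landT hg' p1 p2 => exact absurd (hinj _ hg _ hg' rfl) (by simp)
  | landL hg q1 ih1 =>
    cases h' with
    | constLo hg' p1 => exact absurd (hinj _ hg _ hg' rfl) (by simp)
    | constHi hg' p1 => exact absurd (hinj _ hg _ hg' rfl) (by simp)
    | scaleSmall hg' p1 => exact absurd (hinj _ hg _ hg' rfl) (by simp)
    | scaleLo hg' p1 => exact absurd (hinj _ hg _ hg' rfl) (by simp)
    | copy hg' p1 => exact absurd (hinj _ hg _ hg' rfl) (by simp)
    | add hg' => exact absurd (hinj _ hg _ hg' rfl) (by simp)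
    | sub hg' => exact absurd (hinj _ hg _ hg' rfl) (by simp)
    | lessT hg' p1 p2 => exact absurd (hinj _ hg _ hg' rfl) (by simp)
    | lessF hg' p1 p2 => exact absurd (hinj _ hg _ hg' rfl) (by simp)
    | lnot hg' p1 => exact absurd (hinj _ hg _ hg' rfl) (by simp)
    | lorL hg' p1 => exact absurd (hinj _ hg _ hg' rfl) (by simp)
    | lorR hg' p1 => exact absurd (hinj _ hg _ hg' rfl) (by simp)
    | lorF hg' p1 p2 => exact absurd (hinj _ hg _ hg' rfl) (by simp)
    | landL hg' p1 => rfl
    | landR hg' p1 => rfl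
    | landT hg' p1 p2 =>
      have this := hinj _ hg _ hg' rfl
      cases this
      exact ih1 p1
  | landR hg q1 ih1 =>
    cases h' with
    | constLo hg' p1 => exact absurd (hinj _ hg _ hg' rfl) (by simp)
    | constHi hg' p1 => exact absurd (hinj _ hg _ hg' rfl) (by simp)
    | scaleSmall hg' p1 => exact absurd (hinj _ hg _ hg' rfl) (by simp)
    | scaleLo hg' p1 => exact absurd (hinj _ hg _ hg' rfl) (by simp)
    | copy hg' p1 => exact absurd (hinj _ hg _ hg' rfl) (by simp)
    | add hg' => exact absurd (hinj _ hg _ hg' rfl) (by simp)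
    | sub hg' => exact absurd (hinj _ hg _ hg' rfl) (by simp)
    | lessT hg' p1 p2 => exact absurd (hinj _ hg _ hg' rfl) (by simp)
    | lessF hg' p1 p2 => exact absurd (hinj _ hg _ hg' rfl) (by simp)
    | lnot hg' p1 => exact absurd (hinj _ hg _ hg' rfl) (by simp)
    | lorL hg' p1 => exact absurd (hinj _ hg _ hg' rfl) (by simp)
    | lorR hg' p1 => exact absurd (hinj _ hg _ hg' rfl) (by simp)
    | lorF hg' p1 p2 => exact absurd (hinj _ hg _ hg' rfl) (by simp)
    | landL hg' p1 => rfl
    | landR hg' p1 => rfl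
    | landT hg' p1 p2 =>
      have this := hinj _ hg _ hg' rfl
      cases this
      exact ih1 p2
  | landT hg q1 q2 ih1 ih2 =>
    cases h' with
    | constLo hg' p1 => exact absurd (hinj _ hg _ hg' rfl) (by simp)
    | constHi hg' p1 => exact absurd (hinj _ hg _ hg' rfl) (by simp)
    | scaleSmall hg' p1 => exact absurd (hinj _ hg _ hg' rfl) (by simp)
    | scaleLo hg' p1 => exact absurd (hinj _ hg _ hg' rfl) (by simp)
    | copy hg' p1 => exact absurd (hinj _ hg _ hg' rfl) (by simp)
    | add hg' => exact absurd (hinj _ hg _ hg' rfl) (by simp)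
    | sub hg' => exact absurd (hinj _ hg _ hg' rfl) (by simp)
    | lessT hg' p1 p2 => exact absurd (hinj _ hg _ hg' rfl) (by simp)
    | lessF hg' p1 p2 => exact absurd (hinj _ hg _ hg' rfl) (by simp)
    | lnot hg' p1 => exact absurd (hinj _ hg _ hg' rfl) (by simp)
    | lorL hg' p1 => exact absurd (hinj _ hg _ hg' rfl) (by simp)
    | lorR hg' p1 => exact absurd (hinj _ hg _ hg' rfl) (by simp)
    | lorF hg' p1 p2 => exact absurd (hinj _ hg _ hg' rfl) (by simp)
    | landL hg' p1 =>
      have this := hinj _ hg _ hg' rfl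
      cases this
      exact ih1 p1
    | landR hg' p1 =>
      have this := hinj _ hg _ hg' rfl
      cases this
      exact ih2 p1
    | landT hg' p1 p2 => rfl

theorem Det.const_inv {V : Type} {T : Finset (Gate V)} {ε : ℚ}
    (hinj : ∀ g ∈ T, ∀ h ∈ T, g.out = h.out → g = h) {α : ℚ} {z : V} {b : Bool}
    (hg : Gate.const α z ∈ T) (h : Det T ε z b) :
    (b = false ∧ α < 1 / 2 - ε) ∨ (b = true ∧ 1 / 2 + ε < α) := by
  cases h with
  | constLo hg' p1 =>
    have this := hinj _ hg _ hg' rfl
    cases this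
    exact Or.inl ⟨rfl, p1⟩
  | constHi hg' p1 =>
    have this := hinj _ hg _ hg' rfl
    cases this
    exact Or.inr ⟨rfl, p1⟩
  | scaleSmall hg' p1 => exact absurd (hinj _ hg _ hg' rfl) (by simp)
  | scaleLo hg' p1 => exact absurd (hinj _ hg _ hg' rfl) (by simp)
  | copy hg' p1 => exact absurd (hinj _ hg _ hg' rfl) (by simp)
  | add hg' => exact absurd (hinj _ hg _ hg' rfl) (by simp)
  | sub hg' => exact absurd (hinj _ hg _ hg' rfl) (by simp)
  | lessT hg' p1 p2 => exact absurd (hinj _ hg _ hg' rfl) (by simp)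
  | lessF hg' p1 p2 => exact absurd (hinj _ hg _ hg' rfl) (by simp)
  | lnot hg' p1 => exact absurd (hinj _ hg _ hg' rfl) (by simp)
  | lorL hg' p1 => exact absurd (hinj _ hg _ hg' rfl) (by simp)
  | lorR hg' p1 => exact absurd (hinj _ hg _ hg' rfl) (by simp)
  | lorF hg' p1 p2 => exact absurd (hinj _ hg _ hg' rfl) (by simp)
  | landL hg' p1 => exact absurd (hinj _ hg _ hg' rfl) (by simp)
  | landR hg' p1 => exact absurd (hinj _ hg _ hg' rfl) (by simp)
  | landT hg' p1 p2 => exact absurd (hinj _ hg _ hg' rfl) (by simp)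

theorem Det.scale_inv {V : Type} {T : Finset (Gate V)} {ε : ℚ}
    (hinj : ∀ g ∈ T, ∀ h ∈ T, g.out = h.out → g = h) {α : ℚ} {a z : V} {b : Bool}
    (hg : Gate.scale α a z ∈ T) (h : Det T ε z b) :
    b = false ∧ (α < 1 - 2 * ε ∨ Det T ε a false) := by
  cases h with
  | constLo hg' p1 => exact absurd (hinj _ hg _ hg' rfl) (by simp)
  | constHi hg' p1 => exact absurd (hinj _ hg _ hg' rfl) (by simp)
  | scaleSmall hg' p1 =>
    have this := hinj _ hg _ hg' rfl
    cases this
    exact ⟨rfl, Or.inl p1⟩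
  | scaleLo hg' p1 =>
    have this := hinj _ hg _ hg' rfl
    cases this
    exact ⟨rfl, Or.inr p1⟩
  | copy hg' p1 => exact absurd (hinj _ hg _ hg' rfl) (by simp)
  | add hg' => exact absurd (hinj _ hg _ hg' rfl) (by simp)
  | sub hg' => exact absurd (hinj _ hg _ hg' rfl) (by simp)
  | lessT hg' p1 p2 => exact absurd (hinj _ hg _ hg' rfl) (by simp)
  | lessF hg' p1 p2 => exact absurd (hinj _ hg _ hg' rfl) (by simp)
  | lnot hg' p1 => exact absurd (hinj _ hg _ hg' rfl) (by simp)
  | lorL hg' p1 => exact absurd (hinj _ hg _ hg' rfl) (by simp)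
  | lorR hg' p1 => exact absurd (hinj _ hg _ hg' rfl) (by simp)
  | lorF hg' p1 p2 => exact absurd (hinj _ hg _ hg' rfl) (by simp)
  | landL hg' p1 => exact absurd (hinj _ hg _ hg' rfl) (by simp)
  | landR hg' p1 => exact absurd (hinj _ hg _ hg' rfl) (by simp)
  | landT hg' p1 p2 => exact absurd (hinj _ hg _ hg' rfl) (by simp)

theorem Det.copy_inv {V : Type} {T : Finset (Gate V)} {ε : ℚ}
    (hinj : ∀ g ∈ T, ∀ h ∈ T, g.out = h.out → g = h) {a z : V} {b : Bool}
    (hg : Gate.copy a z ∈ T) (h : Det T ε z b) : Det T ε a b := by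
  cases h with
  | constLo hg' p1 => exact absurd (hinj _ hg _ hg' rfl) (by simp)
  | constHi hg' p1 => exact absurd (hinj _ hg _ hg' rfl) (by simp)
  | scaleSmall hg' p1 => exact absurd (hinj _ hg _ hg' rfl) (by simp)
  | scaleLo hg' p1 => exact absurd (hinj _ hg _ hg' rfl) (by simp)
  | copy hg' p1 =>
    have this := hinj _ hg _ hg' rfl
    cases this
    exact p1
  | add hg' => exact absurd (hinj _ hg _ hg' rfl) (by simp)
  | sub hg' => exact absurd (hinj _ hg _ hg' rfl) (by simp)
  | lessT hg' p1 p2 => exact absurd (hinj _ hg _ hg' rfl) (by simp)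
  | lessF hg' p1 p2 => exact absurd (hinj _ hg _ hg' rfl) (by simp)
  | lnot hg' p1 => exact absurd (hinj _ hg _ hg' rfl) (by simp)
  | lorL hg' p1 => exact absurd (hinj _ hg _ hg' rfl) (by simp)
  | lorR hg' p1 => exact absurd (hinj _ hg _ hg' rfl) (by simp)
  | lorF hg' p1 p2 => exact absurd (hinj _ hg _ hg' rfl) (by simp)
  | landL hg' p1 => exact absurd (hinj _ hg _ hg' rfl) (by simp)
  | landR hg' p1 => exact absurd (hinj _ hg _ hg' rfl) (by simp)
  | landT hg' p1 p2 => exact absurd (hinj _ hg _ hg' rfl) (by simp)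

theorem val_true {V : Type} {T : Finset (Gate V)} {ε : ℚ} {z : V} (h : Det T ε z true) :
    kleeneAssign T ε z = 1 - ε := by
  unfold kleeneAssign
  rw [if_pos h]

theorem val_false {V : Type} {T : Finset (Gate V)} {ε : ℚ}
    (hinj : ∀ g ∈ T, ∀ h ∈ T, g.out = h.out → g = h) (h0 : 0 < ε) {z : V}
    (h : Det T ε z false) : kleeneAssign T ε z = ε := by
  unfold kleeneAssign
  rw [if_neg (fun h1 => absurd (Det.unique hinj h0 h1 h) (by simp)), if_pos h]

theorem val_none {V : Type} {T : Finset (Gate V)} {ε : ℚ} {z : V}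
    (h1 : ¬ Det T ε z true) (h2 : ¬ Det T ε z false) : kleeneAssign T ε z = 1 / 2 := by
  unfold kleeneAssign
  rw [if_neg h1, if_neg h2]

/-- The three possible situations at a node. -/
theorem val_cases {V : Type} {T : Finset (Gate V)} {ε : ℚ}
    (hinj : ∀ g ∈ T, ∀ h ∈ T, g.out = h.out → g = h) (h0 : 0 < ε) (z : V) :
    (Det T ε z true ∧ kleeneAssign T ε z = 1 - ε) ∨ (Det T ε z false ∧ kleeneAssign T ε z = ε) ∨
      (¬ Det T ε z true ∧ ¬ Det T ε z false ∧ kleeneAssign T ε z = 1 / 2) := by
  by_cases h1 : Det T ε z true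
  · exact Or.inl ⟨h1, val_true h1⟩
  · by_cases h2 : Det T ε z false
    · exact Or.inr (Or.inl ⟨h2, val_false hinj h0 h2⟩)
    · exact Or.inr (Or.inr ⟨h1, h2, val_none h1 h2⟩)

theorem val_le_iff {V : Type} {T : Finset (Gate V)} {ε : ℚ}
    (hinj : ∀ g ∈ T, ∀ h ∈ T, g.out = h.out → g = h) (h0 : 0 < ε) (hε : ε < 1 / 2) (z : V) :
    kleeneAssign T ε z ≤ ε ↔ Det T ε z false := by
  rcases val_cases hinj h0 z with ⟨h1, hv⟩ | ⟨h1, hv⟩ | ⟨h1, h2, hv⟩
  · rw [hv]
    exact ⟨fun h => by linarith, fun h => absurd (Det.unique hinj h0 h1 h) (by simp)⟩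
  · rw [hv]
    exact ⟨fun _ => h1, fun _ => le_refl _⟩
  · rw [hv]
    exact ⟨fun h => by linarith, fun h => absurd h h2⟩

theorem val_ge_iff {V : Type} {T : Finset (Gate V)} {ε : ℚ}
    (hinj : ∀ g ∈ T, ∀ h ∈ T, g.out = h.out → g = h) (h0 : 0 < ε) (hε : ε < 1 / 2) (z : V) :
    1 - ε ≤ kleeneAssign T ε z ↔ Det T ε z true := by
  rcases val_cases hinj h0 z with ⟨h1, hv⟩ | ⟨h1, hv⟩ | ⟨h1, h2, hv⟩
  · rw [hv]
    exact ⟨fun _ => h1, fun _ => le_refl _⟩
  · rw [hv]
    exact ⟨fun h => by linarith, fun h => absurd (Det.unique hinj h0 h h1) (by simp)⟩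
  · rw [hv]
    exact ⟨fun h => by linarith, fun h => absurd h h1⟩

theorem sat_kleene {V : Type} (G : GCircuit V) {ε : ℚ} (hq : 1 / 4 ≤ ε) (hε : ε < 1 / 2)
    (g : Gate V) (hg : g ∈ G.gates) : Sat ε (kleeneAssign G.gates ε) g := by
  have hinj := G.out_inj
  have h0 : 0 < ε := by linarith
  have hp := G.param g hg
  cases g with
  | const α z =>
    obtain ⟨hp1, hp2⟩ := hp
    simp only [Sat]
    rcases val_cases hinj h0 z with ⟨h1, hv⟩ | ⟨h1, hv⟩ | ⟨h1, h2, hv⟩
    · rw [hv]
      rcases Det.const_inv hinj hg h1 with h | h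
      · exact absurd h.1 (by simp)
      · rw [abs_le]; constructor <;> linarith [h.2]
    · rw [hv]
      rcases Det.const_inv hinj hg h1 with h | h
      · rw [abs_le]; constructor <;> linarith [h.2]
      · exact absurd h.1 (by simp)
    · rw [hv]
      have a1 : ¬ α < 1 / 2 - ε := fun h => h2 (Det.constLo hg h)
      have a2 : ¬ 1 / 2 + ε < α := fun h => h1 (Det.constHi hg h)
      rw [abs_le]; constructor <;> linarith [not_lt.mp a1, not_lt.mp a2]
  | scale α a z =>
    obtain ⟨hp1, hp2⟩ := hp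
    simp only [Sat]
    rcases val_cases hinj h0 z with ⟨h1, hv⟩ | ⟨h1, hv⟩ | ⟨h1, h2, hv⟩
    · exact absurd (Det.scale_inv hinj hg h1).1 (by simp)
    · rw [hv]
      rcases (Det.scale_inv hinj hg h1).2 with h | h
      · have hxa : 0 ≤ kleeneAssign G.gates ε a ∧ kleeneAssign G.gates ε a ≤ 1 - ε := by
          rcases val_cases hinj h0 a with ⟨_, hw⟩ | ⟨_, hw⟩ | ⟨_, _, hw⟩ <;> rw [hw] <;>
            constructor <;> linarith
        have e1 : 0 ≤ α * kleeneAssign G.gates ε a := mul_nonneg hp1 hxa.1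
        have e2 : α * kleeneAssign G.gates ε a ≤ (1 - 2 * ε) * (1 - ε) :=
          mul_le_mul h.le hxa.2 hxa.1 (by linarith)
        have e3 : (1 - 2 * ε) * (1 - ε) ≤ 2 * ε := by nlinarith
        rw [abs_le]; constructor <;> linarith
      · rw [val_false hinj h0 h]
        have e1 : 0 ≤ α * ε := mul_nonneg hp1 h0.le
        have e2 : α * ε ≤ 1 * ε := mul_le_mul_of_nonneg_right hp2 h0.le
        rw [abs_le]; constructor <;> linarith
    · rw [hv]
      have a1 : 1 - 2 * ε ≤ α := not_lt.mp (fun h => h2 (Det.scaleSmall hg h))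
      have a2 : ¬ Det G.gates ε a false := fun h => h2 (Det.scaleLo hg h)
      rcases val_cases hinj h0 a with ⟨_, hw⟩ | ⟨h3, _⟩ | ⟨_, _, hw⟩
      · rw [hw]
        have e1 : α * (1 - ε) ≤ 1 * (1 - ε) := mul_le_mul_of_nonneg_right hp2 (by linarith)
        have e2 : (1 - 2 * ε) * (1 - ε) ≤ α * (1 - ε) :=
          mul_le_mul_of_nonneg_right a1 (by linarith)
        have e3 : 1 / 2 - ε ≤ (1 - 2 * ε) * (1 - ε) := by nlinarith [sq_nonneg (1 - 2 * ε)]
        rw [abs_le]; constructor <;> linarith
      · exact absurd h3 a2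
      · rw [hw]
        rw [abs_le]; constructor <;> linarith
  | copy a z =>
    simp only [Sat]
    have key : kleeneAssign G.gates ε z = kleeneAssign G.gates ε a := by
      rcases val_cases hinj h0 a with ⟨h1, hw⟩ | ⟨h1, hw⟩ | ⟨h1, h2, hw⟩
      · rw [hw, val_true (Det.copy hg h1)]
      · rw [hw, val_false hinj h0 (Det.copy hg h1)]
      · rw [hw, val_none (fun h => h1 (Det.copy_inv hinj hg h))
          (fun h => h2 (Det.copy_inv hinj hg h))]
    rw [key]
    simp [h0.le]
  | add a b z =>
    simp only [Sat]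
    rw [val_true (Det.add hg)]
    have ha : ε ≤ kleeneAssign G.gates ε a := by
      rcases val_cases hinj h0 a with ⟨_, hw⟩ | ⟨_, hw⟩ | ⟨_, _, hw⟩ <;> rw [hw] <;> linarith
    have hb : ε ≤ kleeneAssign G.gates ε b := by
      rcases val_cases hinj h0 b with ⟨_, hw⟩ | ⟨_, hw⟩ | ⟨_, _, hw⟩ <;> rw [hw] <;> linarith
    have m1 : min (kleeneAssign G.gates ε a + kleeneAssign G.gates ε b) 1 ≤ 1 := min_le_right _ _
    have m2 : 2 * ε ≤ min (kleeneAssign G.gates ε a + kleeneAssign G.gates ε b) 1 :=
      le_min (by linarith) (by linarith)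
    rw [abs_le]; constructor <;> linarith
  | sub a b z =>
    simp only [Sat]
    rw [val_false hinj h0 (Det.sub hg)]
    have ha : kleeneAssign G.gates ε a ≤ 1 - ε := by
      rcases val_cases hinj h0 a with ⟨_, hw⟩ | ⟨_, hw⟩ | ⟨_, _, hw⟩ <;> rw [hw] <;> linarith
    have hb : ε ≤ kleeneAssign G.gates ε b := by
      rcases val_cases hinj h0 b with ⟨_, hw⟩ | ⟨_, hw⟩ | ⟨_, _, hw⟩ <;> rw [hw] <;> linarith
    have m1 : 0 ≤ max (kleeneAssign G.gates ε a - kleeneAssign G.gates ε b) 0 := le_max_right _ _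
    have m2 : max (kleeneAssign G.gates ε a - kleeneAssign G.gates ε b) 0 ≤ 1 - 2 * ε :=
      max_le (by linarith) (by linarith)
    rw [abs_le]; constructor <;> linarith
  | less a b z =>
    simp only [Sat]
    constructor
    · intro h
      rcases val_cases hinj h0 a with ⟨h1, hw⟩ | ⟨h1, hw⟩ | ⟨_, _, hw⟩ <;>
        rcases val_cases hinj h0 b with ⟨h2, hu⟩ | ⟨h2, hu⟩ | ⟨_, _, hu⟩ <;>
        rw [hw, hu] at h <;> first
          | (exfalso; linarith)
          | exact (val_true (Det.lessT hg h1 h2)).ge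
    · intro h
      rcases val_cases hinj h0 a with ⟨h1, hw⟩ | ⟨h1, hw⟩ | ⟨_, _, hw⟩ <;>
        rcases val_cases hinj h0 b with ⟨h2, hu⟩ | ⟨h2, hu⟩ | ⟨_, _, hu⟩ <;>
        rw [hw, hu] at h <;> first
          | (exfalso; linarith)
          | exact (val_false hinj h0 (Det.lessF hg h1 h2)).le
  | lnot a z =>
    simp only [Sat]
    rw [val_le_iff hinj h0 hε, val_le_iff hinj h0 hε, val_ge_iff hinj h0 hε,
      val_ge_iff hinj h0 hε]
    exact ⟨fun h => Det.lnot hg h, fun h => Det.lnot hg h⟩
  | lor a b z =>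
    simp only [Sat]
    rw [val_le_iff hinj h0 hε, val_le_iff hinj h0 hε, val_le_iff hinj h0 hε,
      val_ge_iff hinj h0 hε, val_ge_iff hinj h0 hε, val_ge_iff hinj h0 hε]
    refine ⟨fun h => ?_, fun h => Det.lorF hg h.1 h.2⟩
    rcases h with h | h
    · exact Det.lorL hg h
    · exact Det.lorR hg h
  | land a b z =>
    simp only [Sat]
    rw [val_le_iff hinj h0 hε, val_le_iff hinj h0 hε, val_le_iff hinj h0 hε,
      val_ge_iff hinj h0 hε, val_ge_iff hinj h0 hε, val_ge_iff hinj h0 hε]
    refine ⟨fun h => Det.landT hg h.1 h.2, fun h => ?_⟩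
    rcases h with h | h
    · exact Det.landL hg h
    · exact Det.landR hg h

theorem sat_half {V : Type} (G : GCircuit V) {ε : ℚ} (hε : 1 / 2 ≤ ε) (g : Gate V)
    (hg : g ∈ G.gates) : Sat ε (fun _ => 1 / 2) g := by
  have hp := G.param g hg
  cases g with
  | const α z =>
    obtain ⟨h1, h2⟩ := hp
    simp only [Sat]
    rw [abs_le]; constructor <;> linarith
  | scale α a z =>
    obtain ⟨h1, h2⟩ := hp
    simp only [Sat]
    rw [abs_le]; constructor <;> linarith
  | copy a z => simp only [Sat]; rw [abs_le]; constructor <;> linarith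
  | add a b z =>
    simp only [Sat]
    norm_num
    exact hε
  | sub a b z =>
    simp only [Sat]
    norm_num
    exact hε
  | less a b z =>
    simp only [Sat]
    constructor <;> intro h <;> linarith
  | lnot a z =>
    simp only [Sat]
    constructor <;> intro h <;> linarith
  | lor a b z =>
    simp only [Sat]
    constructor <;> intro h <;> linarith
  | land a b z =>
    simp only [Sat]
    constructor <;> intro h <;> linarith

/-- **No hardness at accuracy `ε ≥ 1/4`.**  Let `G` be any generalized circuit.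

* If `1/4 ≤ ε < 1/2`, the three-valued assignment `kleeneAssign` (all values in
  `{ε, 1/2, 1 - ε} ⊆ [0,1]`) `ε`-satisfies EVERY gate of `G`.
* If `ε ≥ 1/2`, the constant assignment `1/2` `ε`-satisfies every gate of `G`. -/
theorem result {V : Type} (G : GCircuit V) (ε : ℚ) :
    (1 / 4 ≤ ε → ε < 1 / 2 →
      (∀ g ∈ G.gates, Sat ε (kleeneAssign G.gates ε) g) ∧
      (∀ v, kleeneAssign G.gates ε v = ε ∨ kleeneAssign G.gates ε v = 1 / 2 ∨
        kleeneAssign G.gates ε v = 1 - ε) ∧
      (∀ v, 0 ≤ kleeneAssign G.gates ε v ∧ kleeneAssign G.gates ε v ≤ 1)) ∧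
    (1 / 2 ≤ ε → ∀ g ∈ G.gates, Sat ε (fun _ => 1 / 2) g) := by
  refine ⟨fun hq hε => ?_, fun hε g hg => sat_half G hε g hg⟩
  have h0 : 0 < ε := by linarith
  have hv : ∀ v, kleeneAssign G.gates ε v = ε ∨ kleeneAssign G.gates ε v = 1 / 2 ∨
      kleeneAssign G.gates ε v = 1 - ε := by
    intro v
    rcases val_cases G.out_inj h0 v with ⟨_, hw⟩ | ⟨_, hw⟩ | ⟨_, _, hw⟩
    · exact Or.inr (Or.inr hw)
    · exact Or.inl hw
    · exact Or.inr (Or.inl hw)
  refine ⟨fun g hg => sat_kleene G hq hε g hg, hv, fun v => ?_⟩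
  rcases hv v with h | h | h <;> rw [h] <;> constructor <;> linarith

end Vale.Agent.Results.P330.AQuarterThreshold
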