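import Mathlib

namespace Vale.Agent.Results.P330.TrivialRegime

/-- Gates of a generalized circuit over the node type `V`.  The last argument is always the
output node `z`, the node arguments before it are the inputs `a`, `b`. -/
inductive Gate (V : Type) : Type
  | const (α : ℚ) (z : V)
  | scale (α : ℚ) (a z : V)
  | copy (a z : V)
  | add (a b z : V)
  | sub (a b z : V)
  | less (a b z : V)
  | lnot (a z : V)
  | lor (a b z : V)
  | land (a b z : V)

/-- The output node of a gate. -/
def Gate.out {V : Type} : Gate V → V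
  | .const _ z => z
  | .scale _ _ z => z
  | .copy _ z => z
  | .add _ _ z => z
  | .sub _ _ z => z
  | .less _ _ z => z
  | .lnot _ z => z
  | .lor _ _ z => z
  | .land _ _ z => z

/-- Gate parameters lie in `[0,1]`. -/
def Gate.ParamOK {V : Type} : Gate V → Prop
  | .const α _ => 0 ≤ α ∧ α ≤ 1
  | .scale α _ _ => 0 ≤ α ∧ α ≤ 1
  | _ => True

/-- A generalized circuit: a nonempty finite set of gates, every node being the output of at most
one gate (directed cycles are allowed), parameters in `[0,1]`. -/
structure GCircuit (V : Type) where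
  gates : Finset (Gate V)
  nonempty : gates.Nonempty
  out_inj : ∀ g ∈ gates, ∀ h ∈ gates, g.out = h.out → g = h
  param : ∀ g ∈ gates, g.ParamOK

/-- `ε`-satisfaction of a gate by an assignment `x`, exactly as in the problem file. -/
def Sat {V : Type} (ε : ℚ) (x : V → ℚ) : Gate V → Prop
  | .const α z => |x z - α| ≤ ε
  | .scale α a z => |x z - α * x a| ≤ ε
  | .copy a z => |x z - x a| ≤ ε
  | .add a b z => |x z - min (x a + x b) 1| ≤ ε
  | .sub a b z => |x z - max (x a - x b) 0| ≤ ε
  | .less a b z => (x a < x b - ε → 1 - ε ≤ x z) ∧ (x b + ε < x a → x z ≤ ε)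
  | .lnot a z => (x a ≤ ε → 1 - ε ≤ x z) ∧ (1 - ε ≤ x a → x z ≤ ε)
  | .lor a b z =>
      ((1 - ε ≤ x a ∨ 1 - ε ≤ x b) → 1 - ε ≤ x z) ∧ ((x a ≤ ε ∧ x b ≤ ε) → x z ≤ ε)
  | .land a b z =>
      ((1 - ε ≤ x a ∧ 1 - ε ≤ x b) → 1 - ε ≤ x z) ∧ ((x a ≤ ε ∨ x b ≤ ε) → x z ≤ ε)

/-- Forced Boolean values: the least relation closed under the obvious propagation rules, started
from the Constant gates whose parameter is `≤ ε` (forced `false`) or `≥ 1 - ε` (forced `true`) and
pushed through Not, Or and And gates by three-valued logic.  It is computed by at most `|V|` rounds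
of local updates. -/
inductive Det {V : Type} (T : Finset (Gate V)) (ε : ℚ) : V → Bool → Prop
  | constLo {α : ℚ} {z : V} : Gate.const α z ∈ T → α ≤ ε → Det T ε z false
  | constHi {α : ℚ} {z : V} : Gate.const α z ∈ T → 1 - ε ≤ α → Det T ε z true
  | lnot {a z : V} {b : Bool} : Gate.lnot a z ∈ T → Det T ε a b → Det T ε z (!b)
  | lorL {a b z : V} : Gate.lor a b z ∈ T → Det T ε a true → Det T ε z true
  | lorR {a b z : V} : Gate.lor a b z ∈ T → Det T ε b true → Det T ε z true
  | lorF {a b z : V} : Gate.lor a b z ∈ T → Det T ε a false → Det T ε b false → Det T ε z false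
  | landL {a b z : V} : Gate.land a b z ∈ T → Det T ε a false → Det T ε z false
  | landR {a b z : V} : Gate.land a b z ∈ T → Det T ε b false → Det T ε z false
  | landT {a b z : V} : Gate.land a b z ∈ T → Det T ε a true → Det T ε b true → Det T ε z true

theorem Det.unique {V : Type} {T : Finset (Gate V)} {ε : ℚ}
    (hinj : ∀ g ∈ T, ∀ h ∈ T, g.out = h.out → g = h) (hε : ε < 1 / 2)
    {z : V} {b b' : Bool} (h : Det T ε z b) (h' : Det T ε z b') : b = b' := by
  induction h generalizing b' with
  | constLo hg hα =>
    cases h' with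
    | constLo hg' hα' => rfl
    | constHi hg' hα' =>
      have := hinj _ hg _ hg' rfl
      cases this
      linarith
    | lnot hg' _ => exact absurd (hinj _ hg _ hg' rfl) (by simp)
    | lorL hg' _ => exact absurd (hinj _ hg _ hg' rfl) (by simp)
    | lorR hg' _ => exact absurd (hinj _ hg _ hg' rfl) (by simp)
    | lorF hg' _ _ => exact absurd (hinj _ hg _ hg' rfl) (by simp)
    | landL hg' _ => exact absurd (hinj _ hg _ hg' rfl) (by simp)
    | landR hg' _ => exact absurd (hinj _ hg _ hg' rfl) (by simp)
    | landT hg' _ _ => exact absurd (hinj _ hg _ hg' rfl) (by simp)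
  | constHi hg hα =>
    cases h' with
    | constHi hg' hα' => rfl
    | constLo hg' hα' =>
      have := hinj _ hg _ hg' rfl
      cases this
      linarith
    | lnot hg' _ => exact absurd (hinj _ hg _ hg' rfl) (by simp)
    | lorL hg' _ => exact absurd (hinj _ hg _ hg' rfl) (by simp)
    | lorR hg' _ => exact absurd (hinj _ hg _ hg' rfl) (by simp)
    | lorF hg' _ _ => exact absurd (hinj _ hg _ hg' rfl) (by simp)
    | landL hg' _ => exact absurd (hinj _ hg _ hg' rfl) (by simp)
    | landR hg' _ => exact absurd (hinj _ hg _ hg' rfl) (by simp)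
    | landT hg' _ _ => exact absurd (hinj _ hg _ hg' rfl) (by simp)
  | lnot hg _ ih =>
    cases h' with
    | lnot hg' h2 =>
      have := hinj _ hg _ hg' rfl
      cases this
      rw [ih h2]
    | constLo hg' _ => exact absurd (hinj _ hg _ hg' rfl) (by simp)
    | constHi hg' _ => exact absurd (hinj _ hg _ hg' rfl) (by simp)
    | lorL hg' _ => exact absurd (hinj _ hg _ hg' rfl) (by simp)
    | lorR hg' _ => exact absurd (hinj _ hg _ hg' rfl) (by simp)
    | lorF hg' _ _ => exact absurd (hinj _ hg _ hg' rfl) (by simp)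
    | landL hg' _ => exact absurd (hinj _ hg _ hg' rfl) (by simp)
    | landR hg' _ => exact absurd (hinj _ hg _ hg' rfl) (by simp)
    | landT hg' _ _ => exact absurd (hinj _ hg _ hg' rfl) (by simp)
  | lorL hg _ ih =>
    cases h' with
    | lorL hg' _ => rfl
    | lorR hg' _ => rfl
    | lorF hg' h2 h3 =>
      have := hinj _ hg _ hg' rfl
      cases this
      exact ih h2
    | constLo hg' _ => exact absurd (hinj _ hg _ hg' rfl) (by simp)
    | constHi hg' _ => exact absurd (hinj _ hg _ hg' rfl) (by simp)
    | lnot hg' _ => exact absurd (hinj _ hg _ hg' rfl) (by simp)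
    | landL hg' _ => exact absurd (hinj _ hg _ hg' rfl) (by simp)
    | landR hg' _ => exact absurd (hinj _ hg _ hg' rfl) (by simp)
    | landT hg' _ _ => exact absurd (hinj _ hg _ hg' rfl) (by simp)
  | lorR hg _ ih =>
    cases h' with
    | lorL hg' _ => rfl
    | lorR hg' _ => rfl
    | lorF hg' h2 h3 =>
      have := hinj _ hg _ hg' rfl
      cases this
      exact ih h3
    | constLo hg' _ => exact absurd (hinj _ hg _ hg' rfl) (by simp)
    | constHi hg' _ => exact absurd (hinj _ hg _ hg' rfl) (by simp)
    | lnot hg' _ => exact absurd (hinj _ hg _ hg' rfl) (by simp)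
    | landL hg' _ => exact absurd (hinj _ hg _ hg' rfl) (by simp)
    | landR hg' _ => exact absurd (hinj _ hg _ hg' rfl) (by simp)
    | landT hg' _ _ => exact absurd (hinj _ hg _ hg' rfl) (by simp)
  | lorF hg _ _ ih1 ih2 =>
    cases h' with
    | lorL hg' h2 =>
      have := hinj _ hg _ hg' rfl
      cases this
      exact ih1 h2
    | lorR hg' h2 =>
      have := hinj _ hg _ hg' rfl
      cases this
      exact ih2 h2
    | lorF hg' h2 h3 => rfl
    | constLo hg' _ => exact absurd (hinj _ hg _ hg' rfl) (by simp)
    | constHi hg' _ => exact absurd (hinj _ hg _ hg' rfl) (by simp)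
    | lnot hg' _ => exact absurd (hinj _ hg _ hg' rfl) (by simp)
    | landL hg' _ => exact absurd (hinj _ hg _ hg' rfl) (by simp)
    | landR hg' _ => exact absurd (hinj _ hg _ hg' rfl) (by simp)
    | landT hg' _ _ => exact absurd (hinj _ hg _ hg' rfl) (by simp)
  | landL hg _ ih =>
    cases h' with
    | landL hg' _ => rfl
    | landR hg' _ => rfl
    | landT hg' h2 h3 =>
      have := hinj _ hg _ hg' rfl
      cases this
      exact ih h2
    | constLo hg' _ => exact absurd (hinj _ hg _ hg' rfl) (by simp)
    | constHi hg' _ => exact absurd (hinj _ hg _ hg' rfl) (by simp)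
    | lnot hg' _ => exact absurd (hinj _ hg _ hg' rfl) (by simp)
    | lorL hg' _ => exact absurd (hinj _ hg _ hg' rfl) (by simp)
    | lorR hg' _ => exact absurd (hinj _ hg _ hg' rfl) (by simp)
    | lorF hg' _ _ => exact absurd (hinj _ hg _ hg' rfl) (by simp)
  | landR hg _ ih =>
    cases h' with
    | landL hg' _ => rfl
    | landR hg' _ => rfl
    | landT hg' h2 h3 =>
      have := hinj _ hg _ hg' rfl
      cases this
      exact ih h3
    | constLo hg' _ => exact absurd (hinj _ hg _ hg' rfl) (by simp)
    | constHi hg' _ => exact absurd (hinj _ hg _ hg' rfl) (by simp)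
    | lnot hg' _ => exact absurd (hinj _ hg _ hg' rfl) (by simp)
    | lorL hg' _ => exact absurd (hinj _ hg _ hg' rfl) (by simp)
    | lorR hg' _ => exact absurd (hinj _ hg _ hg' rfl) (by simp)
    | lorF hg' _ _ => exact absurd (hinj _ hg _ hg' rfl) (by simp)
  | landT hg _ _ ih1 ih2 =>
    cases h' with
    | landL hg' h2 =>
      have := hinj _ hg _ hg' rfl
      cases this
      exact ih1 h2
    | landR hg' h2 =>
      have := hinj _ hg _ hg' rfl
      cases this
      exact ih2 h2
    | landT hg' h2 h3 => rfl
    | constLo hg' _ => exact absurd (hinj _ hg _ hg' rfl) (by simp)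
    | constHi hg' _ => exact absurd (hinj _ hg _ hg' rfl) (by simp)
    | lnot hg' _ => exact absurd (hinj _ hg _ hg' rfl) (by simp)
    | lorL hg' _ => exact absurd (hinj _ hg _ hg' rfl) (by simp)
    | lorR hg' _ => exact absurd (hinj _ hg _ hg' rfl) (by simp)
    | lorF hg' _ _ => exact absurd (hinj _ hg _ hg' rfl) (by simp)

theorem Det.const_inv {V : Type} {T : Finset (Gate V)} {ε : ℚ}
    (hinj : ∀ g ∈ T, ∀ h ∈ T, g.out = h.out → g = h) {α : ℚ} {z : V} {b : Bool}
    (hg : Gate.const α z ∈ T) (h : Det T ε z b) :
    (b = false ∧ α ≤ ε) ∨ (b = true ∧ 1 - ε ≤ α) := by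
  cases h with
  | constLo hg' hα' =>
    have := hinj _ hg _ hg' rfl
    cases this
    exact Or.inl ⟨rfl, hα'⟩
  | constHi hg' hα' =>
    have := hinj _ hg _ hg' rfl
    cases this
    exact Or.inr ⟨rfl, hα'⟩
  | lnot hg' _ => exact absurd (hinj _ hg _ hg' rfl) (by simp)
  | lorL hg' _ => exact absurd (hinj _ hg _ hg' rfl) (by simp)
  | lorR hg' _ => exact absurd (hinj _ hg _ hg' rfl) (by simp)
  | lorF hg' _ _ => exact absurd (hinj _ hg _ hg' rfl) (by simp)
  | landL hg' _ => exact absurd (hinj _ hg _ hg' rfl) (by simp)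
  | landR hg' _ => exact absurd (hinj _ hg _ hg' rfl) (by simp)
  | landT hg' _ _ => exact absurd (hinj _ hg _ hg' rfl) (by simp)

/-- The parameter of the Constant gate with output `z` if there is one, and `1/2` otherwise. -/
noncomputable def midVal {V : Type} (T : Finset (Gate V)) (z : V) : ℚ :=
  open Classical in if h : ∃ α, Gate.const α z ∈ T then h.choose else 1 / 2

/-- The propagation assignment: `1` on nodes forced `true`, `0` on nodes forced `false`, the gate
parameter on the remaining outputs of Constant gates and `1/2` on all other nodes. -/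
noncomputable def propAssign {V : Type} (T : Finset (Gate V)) (ε : ℚ) (z : V) : ℚ :=
  open Classical in
  if Det T ε z true then 1 else if Det T ε z false then 0 else midVal T z

/-- The number of gates of `G` that are `ε`-satisfied by `x`. -/
noncomputable def satCount {V : Type} (G : GCircuit V) (ε : ℚ) (x : V → ℚ) : ℕ :=
  open Classical in (G.gates.filter (fun g => Sat ε x g)).card

/-- Constant and Not gates. -/
def Gate.IsConstOrNot {V : Type} : Gate V → Prop
  | .const _ _ => True
  | .lnot _ _ => True
  | _ => False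

/-- Constant, Not, Or and And gates. -/
def Gate.IsLogic {V : Type} : Gate V → Prop
  | .const _ _ => True
  | .lnot _ _ => True
  | .lor _ _ _ => True
  | .land _ _ _ => True
  | _ => False

theorem midVal_of_mem {V : Type} {T : Finset (Gate V)}
    (hinj : ∀ g ∈ T, ∀ h ∈ T, g.out = h.out → g = h) {α : ℚ} {z : V}
    (hg : Gate.const α z ∈ T) : midVal T z = α := by
  have h : ∃ α, Gate.const α z ∈ T := ⟨α, hg⟩
  unfold midVal
  rw [dif_pos h]
  have := hinj _ h.choose_spec _ hg rfl
  simpa using this

theorem midVal_mid {V : Type} {T : Finset (Gate V)} {ε : ℚ} (hε : ε < 1 / 2) {z : V}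
    (h0 : ¬ Det T ε z false) (h1 : ¬ Det T ε z true) :
    ε < midVal T z ∧ midVal T z < 1 - ε := by
  unfold midVal
  split_ifs with h
  · constructor
    · by_contra hc
      exact h0 (Det.constLo h.choose_spec (not_lt.mp hc))
    · by_contra hc
      exact h1 (Det.constHi h.choose_spec (not_lt.mp hc))
  · constructor <;> linarith

theorem prop_le_iff {V : Type} {T : Finset (Gate V)} {ε : ℚ}
    (hinj : ∀ g ∈ T, ∀ h ∈ T, g.out = h.out → g = h) (h0 : 0 < ε) (hε : ε < 1 / 2) (z : V) :
    propAssign T ε z ≤ ε ↔ Det T ε z false := by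
  unfold propAssign
  split_ifs with h1 h2
  · constructor
    · intro h; linarith
    · intro h; exact absurd (Det.unique hinj hε h1 h) (by simp)
  · exact ⟨fun _ => h2, fun _ => h0.le⟩
  · constructor
    · intro h; have := (midVal_mid hε h2 h1).1; linarith
    · intro h; exact absurd h h2

theorem prop_ge_iff {V : Type} {T : Finset (Gate V)} {ε : ℚ}
    (h0 : 0 < ε) (hε : ε < 1 / 2) (z : V) :
    1 - ε ≤ propAssign T ε z ↔ Det T ε z true := by
  unfold propAssign
  split_ifs with h1 h2
  · exact ⟨fun _ => h1, fun _ => by linarith⟩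
  · constructor
    · intro h; linarith
    · intro h; exact absurd h h1
  · constructor
    · intro h; have := (midVal_mid hε h2 h1).2; linarith
    · intro h; exact absurd h h1

theorem sat_half {V : Type} (G : GCircuit V) {ε : ℚ} (hε : 1 / 2 ≤ ε) (g : Gate V)
    (hg : g ∈ G.gates) : Sat ε (fun _ => 1 / 2) g := by
  have hp := G.param g hg
  cases g with
  | const α z =>
    obtain ⟨h1, h2⟩ := hp
    simp only [Sat]
    rw [abs_le]; constructor <;> linarith
  | scale α a z =>
    obtain ⟨h1, h2⟩ := hp
    simp only [Sat]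
    rw [abs_le]; constructor <;> linarith
  | copy a z => simp only [Sat]; rw [abs_le]; constructor <;> linarith
  | add a b z =>
    simp only [Sat]
    norm_num
    exact hε
  | sub a b z =>
    simp only [Sat]
    norm_num
    exact hε
  | less a b z =>
    simp only [Sat]
    constructor <;> intro h <;> linarith
  | lnot a z =>
    simp only [Sat]
    constructor <;> intro h <;> linarith
  | lor a b z =>
    simp only [Sat]
    constructor <;> intro h <;> linarith
  | land a b z =>
    simp only [Sat]
    constructor <;> intro h <;> linarith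

theorem sat_zero {V : Type} {ε : ℚ} (h0 : 0 < ε) (hε : ε < 1 / 2) (g : Gate V)
    (hg : ¬ g.IsConstOrNot) : Sat ε (fun _ => 0) g := by
  cases g with
  | const α z => exact absurd trivial hg
  | lnot a z => exact absurd trivial hg
  | scale α a z => simp [Sat, h0.le]
  | copy a z => simp [Sat, h0.le]
  | add a b z => simp [Sat, h0.le]
  | sub a b z => simp [Sat, h0.le]
  | less a b z =>
    simp only [Sat]
    constructor <;> intro h <;> linarith
  | lor a b z =>
    simp only [Sat]
    refine ⟨fun h => ?_, fun _ => h0.le⟩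
    rcases h with h | h <;> linarith
  | land a b z =>
    simp only [Sat]
    refine ⟨fun h => ?_, fun _ => h0.le⟩
    linarith [h.1]

theorem sat_prop {V : Type} (G : GCircuit V) {ε : ℚ} (h0 : 0 < ε) (hε : ε < 1 / 2) (g : Gate V)
    (hg : g ∈ G.gates) (hl : g.IsLogic) : Sat ε (propAssign G.gates ε) g := by
  have hinj := G.out_inj
  have hp := G.param g hg
  cases g with
  | scale α a z => exact absurd hl (by simp [Gate.IsLogic])
  | copy a z => exact absurd hl (by simp [Gate.IsLogic])
  | add a b z => exact absurd hl (by simp [Gate.IsLogic])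
  | sub a b z => exact absurd hl (by simp [Gate.IsLogic])
  | less a b z => exact absurd hl (by simp [Gate.IsLogic])
  | const α z =>
    obtain ⟨hp1, hp2⟩ := hp
    simp only [Sat]
    unfold propAssign
    split_ifs with h1 h2
    · have : 1 - ε ≤ α := by
        rcases Det.const_inv hinj hg h1 with h | h
        · exact absurd h.1 (by simp)
        · exact h.2
      rw [abs_le]; constructor <;> linarith
    · have : α ≤ ε := by
        rcases Det.const_inv hinj hg h2 with h | h
        · exact h.2
        · exact absurd h.1 (by simp)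
      rw [abs_le]; constructor <;> linarith
    · rw [midVal_of_mem hinj hg]; simp [h0.le]
  | lnot a z =>
    simp only [Sat]
    rw [prop_le_iff hinj h0 hε, prop_le_iff hinj h0 hε, prop_ge_iff h0 hε, prop_ge_iff h0 hε]
    exact ⟨fun h => Det.lnot hg h, fun h => Det.lnot hg h⟩
  | lor a b z =>
    simp only [Sat]
    rw [prop_le_iff hinj h0 hε, prop_le_iff hinj h0 hε, prop_le_iff hinj h0 hε,
      prop_ge_iff h0 hε, prop_ge_iff h0 hε, prop_ge_iff h0 hε]
    refine ⟨fun h => ?_, fun h => Det.lorF hg h.1 h.2⟩
    rcases h with h | h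
    · exact Det.lorL hg h
    · exact Det.lorR hg h
  | land a b z =>
    simp only [Sat]
    rw [prop_le_iff hinj h0 hε, prop_le_iff hinj h0 hε, prop_le_iff hinj h0 hε,
      prop_ge_iff h0 hε, prop_ge_iff h0 hε, prop_ge_iff h0 hε]
    refine ⟨fun h => Det.landT hg h.1 h.2, fun h => ?_⟩
    rcases h with h | h
    · exact Det.landL hg h
    · exact Det.landR hg h

theorem prop_values {V : Type} (T : Finset (Gate V)) (ε : ℚ) (v : V) :
    propAssign T ε v = 0 ∨ propAssign T ε v = 1 / 2 ∨ propAssign T ε v = 1 ∨
      Gate.const (propAssign T ε v) v ∈ T := by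
  unfold propAssign
  split_ifs with h1 h2
  · exact Or.inr (Or.inr (Or.inl rfl))
  · exact Or.inl rfl
  · unfold midVal
    split_ifs with h
    · exact Or.inr (Or.inr (Or.inr h.choose_spec))
    · exact Or.inr (Or.inl rfl)

theorem count_add {V : Type} (G : GCircuit V) {ε : ℚ} (h0 : 0 < ε) (hε : ε < 1 / 2) :
    G.gates.card ≤ satCount G ε (fun _ => 0) + satCount G ε (propAssign G.gates ε) := by
  classical
  unfold satCount
  rw [← Finset.card_filter_add_card_filter_not (s := G.gates) (fun g => ¬ g.IsConstOrNot)]
  apply Nat.add_le_add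
  · apply Finset.card_le_card
    intro g hg
    rw [Finset.mem_filter] at hg ⊢
    exact ⟨hg.1, sat_zero h0 hε g hg.2⟩
  · apply Finset.card_le_card
    intro g hg
    rw [Finset.mem_filter] at hg ⊢
    refine ⟨hg.1, sat_prop G h0 hε g hg.1 ?_⟩
    have h2 := not_not.mp hg.2
    cases g <;> trivial

/-- **Trivial parameter regimes for the PCP-for-PPAD conjecture.**  Let `G` be any generalized
circuit and `ε > 0`.

* If `ε ≥ 1/2`, the constant assignment `1/2` `ε`-satisfies every gate.
* If `ε < 1/2`, the constant assignment `0` `ε`-satisfies every gate that is not a Constant or a Not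
  gate, the propagation assignment `propAssign` (values in `[0,1]`, each equal to `0`, `1/2`, `1` or
  the parameter of the Constant gate at that node) `ε`-satisfies every Constant, Not, Or and And
  gate, and hence one of these two assignments `ε`-satisfies at least half of the gates. -/
theorem result {V : Type} (G : GCircuit V) (ε : ℚ) (h0 : 0 < ε) :
    (1 / 2 ≤ ε → ∀ g ∈ G.gates, Sat ε (fun _ => 1 / 2) g) ∧
    (ε < 1 / 2 →
      (∀ g ∈ G.gates, ¬ g.IsConstOrNot → Sat ε (fun _ => 0) g) ∧
      (∀ g ∈ G.gates, g.IsLogic → Sat ε (propAssign G.gates ε) g) ∧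
      (∀ v, propAssign G.gates ε v = 0 ∨ propAssign G.gates ε v = 1 / 2 ∨
        propAssign G.gates ε v = 1 ∨ Gate.const (propAssign G.gates ε v) v ∈ G.gates) ∧
      (∀ v, 0 ≤ propAssign G.gates ε v ∧ propAssign G.gates ε v ≤ 1) ∧
      (G.gates.card ≤ 2 * satCount G ε (fun _ => 0) ∨
        G.gates.card ≤ 2 * satCount G ε (propAssign G.gates ε))) := by
  refine ⟨fun hε g hg => sat_half G hε g hg, fun hε => ⟨fun g _ hn => sat_zero h0 hε g hn,
    fun g hg hl => sat_prop G h0 hε g hg hl, prop_values G.gates ε, fun v => ?_, ?_⟩⟩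
  · rcases prop_values G.gates ε v with h | h | h | h
    · rw [h]; norm_num
    · rw [h]; norm_num
    · rw [h]; norm_num
    · exact G.param _ h
  · have := count_add G h0 hε
    omega

end Vale.Agent.Results.P330.TrivialRegime
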